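import Vale.Agent.Lib.P195.Main
import Vale.Agent.Lib.P195.Bounded
import Vale.Agent.Lib.P195F.Final
import Vale.Agent.Lib.P195H.Final
import Vale.Agent.Lib.P195Q.Sum
import Vale.Agent.Lib.P195Q.GapDefs

open CategoryTheory Abelian

namespace Vale.Agent.Results.P195.AAllClasses

open Vale.Agent.Lib.P195 Vale.Agent.Lib.P195Q

universe u v

/-- Statement (a): Artin algebras with radical cube zero, using `Ext¹` and large degrees of self-extensions. -/
def CaseA : Prop :=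
  ∀ (S : Type v) (R : Type u) [CommRing S] [IsArtinianRing S] [Ring R]
      [Algebra S R] [Module.Finite S R],
      (∀ a ∈ Ring.jacobson R, ∀ b ∈ Ring.jacobson R, ∀ c ∈ Ring.jacobson R, a * b * c = 0) →
      ∀ (M : ModuleCat.{u} R) [Module.Finite R M],
      (∀ i : ℕ, 1 ≤ i → ∀ e : Ext M (ModuleCat.of R R) i, e = 0) →
      (∀ e : Ext M M 1, e = 0) →
      ∀ m : ℕ, (∀ i : ℕ, m < i → ∀ e : Ext M M i, e = 0) → Module.Projective R M

/-- Statement (b): Artin algebras with radical cube zero, a finite range of vanishing. -/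
def CaseB : Prop :=
  ∀ (S : Type v) (R : Type u) [CommRing S] [IsArtinianRing S] [Ring R]
      [Algebra S R] [Module.Finite S R],
      (∀ a ∈ Ring.jacobson R, ∀ b ∈ Ring.jacobson R, ∀ c ∈ Ring.jacobson R, a * b * c = 0) →
      ∀ (n : ℕ) (T : Fin n → ModuleCat.{u} R),
      (∀ Q : ModuleCat.{u} R, IsSimpleModule R Q → ∃ i, Nonempty (Q ≅ T i)) →
      ∀ (M : ModuleCat.{u} R) [Module.Finite R M],
      (∀ i : ℕ, 1 ≤ i → i ≤ 2 * n + 2 → ∀ e : Ext M M i, e = 0) →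
      (∀ i : ℕ, 1 ≤ i → i ≤ 2 * n + 2 → ∀ e : Ext M (ModuleCat.of R R) i, e = 0) →
      Module.Projective R M

/-- Statement (c): local self-injective Artin algebras with `J⁴ = 0` and length at least ten. -/
def CaseC : Prop :=
  ∀ (S : Type v) (R : Type u) [CommRing S] [IsArtinianRing S] [Ring R]
      [Algebra S R] [Module.Finite S R] [IsLocalRing R], Module.Injective R R →
      (∀ a ∈ Ring.jacobson R, ∀ b ∈ Ring.jacobson R, ∀ c ∈ Ring.jacobson R,
        ∀ d ∈ Ring.jacobson R, a * b * c * d = 0) →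
      10 ≤ Module.length R R →
      ∀ (M : ModuleCat.{u} R) [Module.Finite R M],
      (∀ i : ℕ, 1 ≤ i → ∀ e : Ext M M i, e = 0) → Module.Projective R M

/-- Statement (d): more than `2 n` syzygies of Loewy length at most two. -/
def CaseD : Prop :=
  ∀ (S : Type v) (R : Type u) [CommRing S] [IsArtinianRing S] [Ring R]
      [Algebra S R] [Module.Finite S R]
      (n : ℕ) (T : Fin n → ModuleCat.{u} R),
      (∀ Q : ModuleCat.{u} R, IsSimpleModule R Q → ∃ i, Nonempty (Q ≅ T i)) →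
      ∀ (s : Syz R) (K : Finset ℕ), 2 * n < K.card →
      (∀ k ∈ K, ∀ a ∈ Ring.jacobson R, ∀ b ∈ Ring.jacobson R, ∀ x : s.X k, a • b • x = 0) →
      ∀ B : ℕ, (∀ k ∈ K, k + 1 ≤ B) →
      (∀ a, 1 ≤ a → a ≤ B → ∀ e : Ext (s.X 0) (ModuleCat.of R R) a, e = 0) →
      (∀ e : Ext (s.X 0) (s.X 0) 1, e = 0) →
      (∀ k ∈ K, ∀ i ∈ K, k < i →
        (∀ e : Ext (s.X 0) (s.X 0) (i - k), e = 0) ∧
          (∀ e : Ext (s.X 0) (s.X 0) (i - k + 1), e = 0)) →
      Module.Projective R (s.X 0)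

/-- Statement (e): finite-dimensional algebras, syzygies of bounded length along a subsequence. -/
def CaseE : Prop :=
  ∀ (k : Type v) (A : Type u) [Field k] [Ring A] [Algebra k A] [Module.Finite k A]
      (s : Syz A),
      (∀ i : ℕ, 1 ≤ i → ∀ e : Ext (s.X 0) (ModuleCat.of A A) i, e = 0) →
      (∀ e : Ext (s.X 0) (s.X 0) 1, e = 0) →
      ∀ m : ℕ, (∀ i : ℕ, m < i → ∀ e : Ext (s.X 0) (s.X 0) i, e = 0) →
      ∀ D : ℕ, (∀ N : ℕ, ∃ n, N ≤ n ∧ ∃ (r : ℕ) (Y : Fin r → ModuleCat.{u} A),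
        (∀ j, Module.length A (Y j) ≤ D) ∧ Nonempty (s.X n ≃ₗ[A] ∀ j, Y j)) →
      Module.Projective A (s.X 0)

/-- Statement (f): graded algebras with `A_0 = k^r`, a syzygy that is a sum of modules generated in one degree. -/
def CaseF : Prop :=
  ∀ (k : Type v) [Field k] (A : Type u) [Ring A] [Nontrivial A] [Algebra k A]
      [FiniteDimensional k A] (𝒜 : ℕ → Submodule k A) [GradedAlgebra 𝒜]
      (s : ℕ), (∀ i, s < i → 𝒜 i = ⊥) → ∀ (r : ℕ) (e : Fin r → A), (∀ i, e i ∈ 𝒜 0) →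
      (∀ i, e i ≠ 0) → (∀ i, e i * e i = e i) → (∀ i j, i ≠ j → e i * e j = 0) →
      (∑ i, e i = 1) → (∀ a ∈ 𝒜 0, ∃ c : Fin r → k, a = ∑ i, c i • e i) →
      ∀ (S : Syz A) (n : ℕ) (q : ℕ) (Z : Fin q → ModuleCat.{u} A) [∀ i, Module k (Z i)]
      [∀ i, IsScalarTower k A (Z i)] (ℳ : ∀ i, ℕ → Submodule k (Z i))
      [∀ i, DirectSum.Decomposition (ℳ i)] [∀ i, SetLike.GradedSMul 𝒜 (ℳ i)],
      (∀ i, Submodule.span A (ℳ i 0 : Set (Z i)) = ⊤) →
      (S.X n ≃ₗ[A] ∀ i, Z i) →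
      (∀ i, 1 ≤ i → i ≤ (r + 2) * s + 2 → ∀ x : Ext (S.X 0) (S.X 0) i, x = 0) →
      (∀ i, 1 ≤ i → i ≤ (r + 2) * s + 2 + n → ∀ x : Ext (S.X 0) (ModuleCat.of A A) i, x = 0) →
      Module.Projective A (S.X 0)

/-- Statement (g): graded algebras with `A_0 = k^r`, a step of the minimal resolution with a gap between the degrees of the generators. -/
def CaseG : Prop :=
  ∀ (k : Type v) [Field k] (A : Type u) [Ring A] [Algebra k A] [Nontrivial A]
    [FiniteDimensional k A] (𝒜 : ℕ → Submodule k A) [GradedAlgebra 𝒜] (s : ℕ) (r : ℕ)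
    (e : Fin r → A), QuiverGrading 𝒜 s e →
    ∀ (S : Syz A) (n : ℕ) [Module k (S.X n)] [IsScalarTower k A (S.X n)]
    [Module k (S.P n)] [IsScalarTower k A (S.P n)]
    [Module k (S.X (n + 1))] [IsScalarTower k A (S.X (n + 1))]
    (ℳ : ℕ → Submodule k (S.X n)) (ℬ : ℕ → Submodule k (S.P n)) (𝒴 : ℕ → Submodule k (S.X (n + 1)))
    [DirectSum.Decomposition ℳ] [DirectSum.Decomposition ℬ] [DirectSum.Decomposition 𝒴]
    [SetLike.GradedSMul 𝒜 ℳ] [SetLike.GradedSMul 𝒜 ℬ] [SetLike.GradedSMul 𝒜 𝒴]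
    (L T : ℕ), GradedStep S n ℳ ℬ 𝒴 L T →
    VanishingRange S (2 * T + (r + 1) * s + 1) n →
    (NoLowering S n 𝒜 ℳ L → NoDegreeZero S n ℳ 𝒴 → Module.Projective A (S.X 0)) ∧
      (GenLE S n ℳ L → Module.Projective A (S.X 0))

/-- Statement (h): local self-injective Artin algebras of any Loewy length, with `J³` small. -/
def CaseH : Prop :=
  ∀ (S : Type v) (R : Type u) [CommRing S] [IsArtinianRing S] [Ring R]
      [Algebra S R] [Module.Finite S R] [IsLocalRing R], Module.Injective R R →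
      ∀ e : ℕ, 1 ≤ e →
      Module.length R (Ring.jacobson R • (Ring.jacobson R • Ring.jacobson R) : Ideal R) ≤ e →
      (((e + 2) ^ 2 : ℕ) : ℕ∞) < Module.length R R →
      ∀ (M : ModuleCat.{u} R) [Module.Finite R M] (m : ℕ),
      (∀ i : ℕ, m < i → ∀ x : Ext M M i, x = 0) → Module.Projective R M

/-- The conjunction of the eight statements on the Auslander-Reiten condition. -/
theorem result : CaseA.{u, v} ∧ CaseB.{u, v} ∧ CaseC.{u, v} ∧ CaseD.{u, v} ∧ CaseE.{u, v} ∧ CaseF.{u, v} ∧ CaseG.{u, v} ∧ CaseH.{u, v} := by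
  refine ⟨?_, ?_, ?_, ?_, ?_, ?_, ?_, ?_⟩
  · intro S R _ _ _ _ _ hJ M _ h₂ h₁ m hm
    exact ar_cube_zero_eventual (S := S) hJ M h₂ h₁ m hm
  · intro S R _ _ _ _ _ hJ n T hT M _ h₁ h₂
    exact ar_cube_zero_range (S := S) hJ T hT M h₁ h₂
  · intro S R _ _ _ _ _ _ hinj hJ hlen M _ h
    exact Vale.Agent.Lib.P195F.local_selfinjective_rad_four (S := S) hinj hJ hlen M h
  · intro S R _ _ _ _ _ n T hT s K hK hJ B hKB hMR hM1 hMM
    exact ar_general (S := S) T hT s K hK hJ B hKB hMR hM1 hMM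
  · intro k A _ _ _ _ s h₂ h₁ m hm D hD
    exact bounded_syzygy k s h₂ h₁ m hm D hD
  · intro k _ A _ _ _ _ 𝒜 _ s hs r e he he0 hee heo he1 hspan S n q Z _ _ ℳ _ _ hgen iso hMM hMA
    exact Vale.Agent.Lib.P195Q.projective_of_graded_syzygy_sum 𝒜 s hs e he he0 hee heo he1 hspan
      S n q Z ℳ hgen iso hMM hMA
  · intro k _ A _ _ _ _ 𝒜 _ s r e hA S n _ _ _ _ _ _ ℳ ℬ 𝒴 _ _ _ _ _ _ L T hS hV
    obtain ⟨hs, he, he0, hee, heo, he1, hspan⟩ := hA
    obtain ⟨gι, gπ, hT, hY⟩ := hS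
    obtain ⟨hMM, hMA⟩ := hV
    exact ⟨fun hu hθ => projective_of_graded_gap 𝒜 s hs e he he0 hee heo he1 hspan S n
        ℳ ℬ 𝒴 gι gπ L T hT hY hu hθ hMM hMA,
      fun hgen => projective_of_graded_gap_gen 𝒜 s hs e he he0 hee heo he1 hspan S n
        ℳ ℬ 𝒴 gι gπ L T hT hY hgen hMM hMA⟩
  · intro S R _ _ _ _ _ _ hinj e he hJ3 hlen M _ m h
    exact Vale.Agent.Lib.P195H.local_selfinjective_small_cube (S := S) hinj e he hJ3 hlen M m h

end Vale.Agent.Results.P195.AAllClasses
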